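import Vale.Agent.P011UHB.E6
import Vale.Agent.P011UBL.Main
import Vale.Agent.P011UBS.Bld
import Vale.Agent.P011UIV.Main
import Vale.Agent.P011UP.Lev

/-!
The quadratic step with an anisotropic kernel: normal form.
-/

set_option autoImplicit false
set_option linter.all false

namespace Vale.Agent.P011UOJ

open Matrix Subgroup Vale.Agent.P011L Vale.Agent.P183CH Vale.Agent.P183CH.Chev Vale.Agent.P183A
  Vale.Agent.P011U Vale.Agent.P011UP Vale.Agent.P011UHB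
open Vale.Agent.P011UC (pa)

section

variable {R : RS} {K G : Type} [Field K] [Group G] {Γ : RG R K G} {J J' : Set (Fin R.r)}
  {g n p q x y z : G} {w : R.Aut} {π : Equiv.Perm (Fin R.r)}

variable (Γ J) in
/-- chambers in the same residue -/
def E (x y : G) : Prop := x⁻¹ * y ∈ PJ Γ J

theorem E.symm (h : E Γ J x y) : E Γ J y x := by simpa [E] using inv_mem h

theorem E.trans (h : E Γ J x y) (h' : E Γ J y z) : E Γ J x z := by
  simpa [E, mul_assoc] using mul_mem h h'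

theorem Bo_le : Γ.Bo ≤ PJ Γ J := sup_le U_le_PJ (le_sup_right.trans GJ_le_PJ)

theorem E.of (h : p ∈ PJ Γ J) (x : G) : E Γ J x (x * p) := by simpa [E] using h

variable (hΓ : Γ.Ok) (hR : R.Ok)
include hΓ hR

/-- The intersection of two opposite parabolic subgroups is a Levi subgroup. -/
theorem opp [Infinite K] (hn : Γ.Rep n w) (hw : R.Lg Set.univ w)
    (hJ : ∀ j ∈ J', R.In J (w (R.α j))) (hq : q ∈ PJ Γ J) (h : n⁻¹ * q * n ∈ PJ Γ J') :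
    q ∈ Γ.GJ J := by
  obtain ⟨m, hm, -⟩ := exists_dom hR J
  obtain ⟨m', hm', -⟩ := exists_dom hR J'
  obtain ⟨s, hs⟩ := exists_gen (K := K) m
  obtain ⟨u, hu, l, hl, rfl⟩ := (mem_PJ hΓ hR hm).1 hq
  obtain ⟨u', hu', l', hl', e⟩ := (mem_PJ hΓ hR hm').1 h
  obtain ⟨l', h1, t, ht, rfl⟩ := GJ_split hΓ hl'
  have h2 : n * u' * n⁻¹ ∈ Γ.V := RG.VJ_le _ (hΓ.Lg_U hR hn hw (RG.UJ_univ (Γ := Γ) ▸ RJ_le_U hu'))
  have h3 : n * l' * n⁻¹ * (n * t * n⁻¹) * l⁻¹ ∈ Γ.GJ J := mul_mem (mul_mem (mem_sup_left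
    (hΓ.rep_X hR hn (fun γ h _ => P011UBS.In_map hJ h) h1))
    (mem_sup_right (hΓ.nm_N_T hR n hn.mem_N t ht))) (inv_mem hl)
  have h4 : u = n * u' * n⁻¹ * (n * l' * n⁻¹ * (n * t * n⁻¹) * l⁻¹) := by
    rw [eq_mul_inv_of_mul_eq e]; group
  generalize n * u' * n⁻¹ = v at h2 h4
  generalize n * l' * n⁻¹ * (n * t * n⁻¹) * l⁻¹ = r at h3 h4
  have h5 : co hΓ m s * u * (co hΓ m s)⁻¹ * u⁻¹ = co hΓ m s * v * (co hΓ m s)⁻¹ * v⁻¹ := by
    rw [h4, show co hΓ m s * (v * r) * (co hΓ m s)⁻¹ = co hΓ m s * v * (co hΓ m s)⁻¹ *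
      (co hΓ m s * r * (co hΓ m s)⁻¹) by group, co_GJ hΓ hm h3]
    group
  have h6 := hΓ.U_inf_V (RJ_le_U (mul_mem (hΓ.nm_T_X _ _ (co_mem hΓ (m := m) s) u hu) (inv_mem hu)))
    (h5 ▸ mul_mem (hΓ.nm_T_X _ _ (co_mem hΓ s) _ h2) (inv_mem h2))
  rwa [cent_RJ hΓ hR hm hs hu (mul_inv_eq_one.1 h6), one_mul]

theorem main [Infinite K] {Λ : Type} [Group Λ] {τ : Λ → G → G} {π : Λ →* Equiv.Perm (Fin R.r)}
    {ε : Λ →* ℤˣ} {θ : Λ} {u v : R.Aut}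
    (b7 : ∀ σ J J', (∀ i ∈ J, π σ i ∈ J') → ∀ {x y}, E Γ J x y → E Γ J' (τ σ x) (τ σ y))
    (b6 : ∀ σ σ' J, E Γ J (τ σ (τ σ' x)) (τ (σ * σ') x))
    (b8 : ∀ σ J y n n', Γ.Rep n (u * v) → Γ.Rep n' (u * v) → E Γ J (τ σ (y * n)) (τ σ y * n'))
    (p1 : ∀ σ, ε σ = 1 → π σ = 1) (b3 : ∀ σ, ε σ = 1 → E Γ J x (τ σ x)) (hu : u ∈ R.WJ J)
    (hw : R.Lg Set.univ (u * v)) (hc : Cell Γ (x⁻¹ * τ θ x) v)
    (a5 : ∀ i, R.In (J ∪ {j | ∃ σ, ε σ = 1 ∧ j = π σ i}) ((v * pa R (π θ)) (R.α i))) :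
    ∃ y n, Γ.Rep n (u * v) ∧ (∀ σ, ε σ = 1 → y⁻¹ * τ σ y ∈ Γ.GJ J) ∧
      y⁻¹ * τ θ y * n⁻¹ ∈ Γ.GJ J := by
  obtain ⟨a, ha, n', b, hb, hn, e⟩ := hc
  obtain ⟨m, hm, r⟩ := RG.exists_rep' (Γ := Γ) hu
  replace hn := r.mul hn
  have b0 : ∀ j ∈ π θ '' J, R.In J ((u * v) (R.α j)) := by
    rintro _ ⟨i, hi, rfl⟩
    have := a5 i
    rw [RS.mul_app, P011UBS.pa_α] at this
    rw [RS.mul_app]
    refine hR.map_In hu (P011UBS.In_mono (Set.union_subset le_rfl ?_) this)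
    rintro _ ⟨σ, s, rfl⟩
    rwa [p1 σ s]
  have b1 : E Γ J x (x * (a * m⁻¹)) :=
    .of (mul_mem (Bo_le ha) (inv_mem (GJ_le_PJ (hΓ.NJ_le hR hm)))) x
  have b2 : ∀ J, E Γ J (x * (a * m⁻¹) * (m * n')) (τ θ x) := fun J => by
    rw [← mul_inv_cancel_left x (τ θ x), e]
    simpa [E, mul_assoc] using Bo_le hb
  generalize x * (a * m⁻¹) = y at b1 b2
  generalize m * n' = n at hn b2
  have b4 : ∀ σ, ε σ = 1 → ∀ J : Set _, ∀ i ∈ J, π σ i ∈ J := fun σ s J i hi => by rwa [p1 σ s]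
  have b5 : ∀ i ∈ J, π θ i ∈ π θ '' J := fun i hi => ⟨i, hi, rfl⟩
  refine ⟨y, n, hn, fun σ s => opp hΓ hR hn hw b0
    ((b1.symm.trans (b3 σ s)).trans (b7 σ J J (b4 σ s J) b1)) ?_, opp hΓ hR hn hw b0 ?_ ?_⟩
  · have c1 := b6 θ (θ⁻¹ * σ * θ) (π θ '' J)
    rw [mul_assoc θ⁻¹, mul_inv_cancel_left, ← mul_assoc θ⁻¹] at c1
    simpa [E, mul_assoc] using (((((b2 _).trans (b7 θ _ _ b5 (b3 _ (by simp [s])))).trans c1).trans
      (b6 σ θ _).symm).trans (b7 σ _ _ (b4 σ s _) (b2 _).symm)).trans (b8 σ _ y n n hn hn)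
  · simpa [E, mul_assoc] using (((b1.symm.trans (b3 (θ * θ) (by simp))).trans
      (b6 θ θ _).symm).trans (b7 θ ∅ _ (fun _ => False.elim) (b2 ∅).symm)).trans
      (b8 θ _ y n n⁻¹ hn (hR.Lg_inv hw ▸ hn.inv))
  · simpa [E, mul_assoc] using (b2 _).trans (b7 θ _ _ b5 b1)

variable {ψ : G →* G} {σ : K →+* K} {c : Fin R.r → Kˣ} (h : Std Γ ψ σ g c π)
include h

theorem std_le (hJ : ∀ i ∈ J, π i ∈ J') (hp : p ∈ PJ Γ J) : g⁻¹ * ψ p * g ∈ PJ Γ J' :=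
  (sup_le (sup_le (fun v hv => GJ_le_PJ (mem_sup_left (std_X hΓ h hR (S := {γ | R.In J γ})
      (S' := {γ | R.In J' γ}) (fun γ e _ i hi => e _ fun c => hi (by simpa using hJ _ c)) hv)))
    fun t ht => GJ_le_PJ (mem_sup_right (std_T hΓ h ht)))
    fun v hv => U_le_PJ (std_X hΓ h hR (fun _ e _ => pm_nonneg e) hv) :
      _ ≤ (PJ Γ J').comap ((MulAut.conj g).symm.toMonoidHom.comp ψ)) hp

theorem E.map (hJ : ∀ i ∈ J, π i ∈ J') (e : E Γ J x y) : E Γ J' (ψ x * g) (ψ y * g) := by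
  simpa [E, mul_assoc] using std_le hΓ hR h hJ e

theorem std_n0 (hn : Γ.Rep n w) (hw : R.Lg Set.univ w) {n' : G} (hn' : Γ.Rep n' w) (x : G) :
    E Γ J (ψ (x * n) * g) (ψ x * g * n') := by
  have h1 := P011UBL.std_rep hΓ hR h hn
  rw [hR.Lg_unique (w := pa R π * w * (pa R π)⁻¹) ⟨h1.mem_W, fun j _ => by
    rw [← π.apply_symm_apply j, P011UBS.pa_conj_α]
    exact P011UBS.pa_nonpos.2 (hw.2 _ trivial)⟩ hw] at h1
  simpa [E, mul_assoc] using GJ_le_PJ (J := J) (mem_sup_right (hΓ.rep_div hR h1 hn').2)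

end

theorem std_cj {k K : Type} [Field k] [Field K] [Algebra k K] [Algebra.IsAlgebraic k K] {D : Chev}
    {T : Tw k (D.grp K)} {σ g c π} (h : Std (GG D K) (T.a σ) σ g c π) (y : D.grp K) :
    Std (GG D K) ((cj T y).a σ) σ (y⁻¹ * (T.a σ y * g)) c π := ⟨h.1, fun i u => by
  simp only [cj_a, map_mul, map_inv, (h.2 i u).1, (h.2 i u).2]
  constructor <;> group⟩

theorem opj (opb : OPB) : OPJ := by
  intro k K _ _ _ _ _ D hD T L hL h1 J hJ ⟨y0, hy0⟩ hmin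
  classical
  have : Infinite K := Infinite.of_injective _ (algebraMap k K).injective
  have hR := R_ok D
  obtain ⟨π, hπ, hu, -⟩ := P011UIV.sta k K D hD T
  choose g c hg using hπ
  have hs : ∀ σ, Std (GG D K) (T.a σ).toMonoidHom (σ : K →+* K) (g σ) (c σ) (π σ) := hg
  obtain ⟨δ, B, d1, d2, d3, -⟩ := P011UBL.blg D.R K _ (GG D K) hR GG_ok
  have h2 : L.fixingSubgroup.index = 2 :=
    (IntermediateField.finrank_eq_fixingSubgroup_index K L).symm.trans hL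
  have hm := fun a b => L.fixingSubgroup.mul_mem_iff_of_index_two h2 (a := a) (b := b)
  obtain ⟨θ, hθ⟩ : ∃ s, s ∉ L.fixingSubgroup := by
    by_contra c
    rw [index_eq_one.2 (eq_top_iff.2 fun s _ => not_not.1 fun e => c ⟨s, e⟩)] at h2
    omega
  let ε : (K ≃ₐ[k] K) →* ℤˣ := .mk' (fun σ => if σ ∈ L.fixingSubgroup then 1 else -1) fun σ τ => by
    by_cases a : σ ∈ L.fixingSubgroup <;> by_cases b : τ ∈ L.fixingSubgroup <;> simp [hm, a, b]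
  have e1 : ∀ σ, ε σ = 1 ↔ Fx (L : Set K) σ := fun σ =>
    (ite_eq_left_iff.trans (by simp)).trans (IntermediateField.mem_fixingSubgroup_iff L σ)
  have e2 : ε θ = -1 := if_neg hθ
  have p1 : ∀ σ, ε σ = 1 → π σ = 1 := fun σ e =>
    let ⟨_, _, h⟩ := h1 σ ((e1 σ).1 e); (hu σ _ _ _ h).symm
  have co : ∀ σ τ x, (T.a σ (T.a τ x * g τ) * g σ)⁻¹ * (T.a (σ * τ) x * g (σ * τ)) ∈
      (GG D K).Bo := fun σ τ x => by
    obtain ⟨-, s, e, -⟩ := P011UQ.std_uniq GG_ok hR (g := g (σ * τ)) (c := c (σ * τ))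
      (π := π (σ * τ)) (by have := hg (σ * τ); rw [map_mul] at this; exact this)
      ((hs σ).comp (hg τ)) (by simp)
    have := RG.T_le_Bo (GG_ok.hT_mem (Γ := GG D K) s)
    rw [← e] at this
    simpa [mul_assoc] using this
  have fix : ∀ σ y J, Sb D.R δ (fun y => T.a σ y * g σ) (π σ) y J → ∀ p ∈ PJ (GG D K) J,
      y⁻¹ * T.a σ (y * p * y⁻¹) * y ∈ PJ (GG D K) J := fun σ y J h p hp => by
    have := (d2 _ _ _).1 h.1
    simpa [mul_assoc] using mul_mem (mul_mem this (std_le GG_ok hR (hs σ)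
      (fun i => (h.2 i).2) hp)) (inv_mem this)
  obtain ⟨x, J', a1, a2, a3⟩ := opb D.R hR _ _ δ (fun σ y => T.a σ y * g σ) π ε θ B
    (fun σ => d3 _ _ _ _ _ (hs σ)) (fun σ τ x => (d1 _ _ _).1 (P011UBL.cell_Bo (co σ τ x))) e2 ⟨1⟩
  have a4 := a2 y0 J fun σ e => (std_PJ GG_ok hR (std_cj (hg σ) y0) σ.surjective fun p hp =>
    cj_a T y0 σ p ▸ hy0 σ ((e1 σ).1 e) p hp).imp_left (d2 _ _ _).2
  obtain rfl : J = J' := Set.eq_of_subset_of_ncard_le (hmin J' (fun e =>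
    hJ (Set.eq_of_subset_of_ncard_le J.subset_univ (e ▸ a4)))
    ⟨x, fun σ e => fix σ x J' (a1 σ ((e1 σ).2 e))⟩) a4
  obtain ⟨J', a5, a6⟩ | ⟨⟨u, hu, hw⟩, a5⟩ := a3
  · exact .inl (iso_of_fix (P011UC.nfx P011UB.aut) k K D hD T J' a5 ⟨x, fun σ => fix σ x J' (a6 σ)⟩)
  obtain ⟨y, n, hn, b1, b2⟩ := main GG_ok hR (τ := fun σ y => T.a σ y * g σ) (θ := θ)
    (fun σ J J' a _ _ b => (b.map GG_ok hR (hs σ) a :)) (fun σ τ J => Bo_le (co σ τ x))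
    (fun σ J y n n' a b => (std_n0 GG_ok hR (hs σ) a hw b y :)) p1
    (fun σ s => (d2 _ _ _).1 (a1 σ s).1) hu hw ((d1 _ _ _).2 rfl) a5
  exact .inr ⟨cj T y, θ, eqv_cj T y, fun e => hθ ((IntermediateField.mem_fixingSubgroup_iff L θ).2 e),
    fun σ s => ⟨_, b1 σ ((e1 σ).2 s), _, p1 σ ((e1 σ).2 s) ▸ std_cj (hg σ) y⟩,
    _, b2, n, _, c θ, π θ, hn, hw, by simpa only [inv_mul_cancel_right] using std_cj (hg θ) y⟩

end Vale.Agent.P011UOJ
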